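/-
Row 210 (S0432), layer CO (coefficients), file 1: elementary inequalities for sin, sinh, cosh.
Architect of the layer: helper785.  Pure real analysis, no frozen notion.
-/
import Mathlib

set_option autoImplicit false

namespace Claimed.Agent.R210.CO.Sinh

open Real

/-- `sinh (t β) ≤ t sinh β` for `t ∈ [0,1]`, `β ≥ 0`.
Proof: `g β = t sinh β - sinh (t β)`, `g 0 = 0`, `g' = t (cosh β - cosh (t β)) ≥ 0` (`Real.cosh_le_cosh`), `monotoneOn_of_deriv_nonneg` on `Ici 0`. -/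
theorem co_sinh_mul_le {t β : ℝ} (ht0 : 0 ≤ t) (ht1 : t ≤ 1) (hβ : 0 ≤ β) :
    sinh (t * β) ≤ t * sinh β := by
  have hd : ∀ x : ℝ, HasDerivAt (fun x => t * sinh x - sinh (t * x)) (t * cosh x - cosh (t * x) * (t * 1)) x := by
    intro x
    exact ((Real.hasDerivAt_sinh x).const_mul t).sub (((hasDerivAt_id x).const_mul t).sinh)
  have hmono : MonotoneOn (fun x => t * sinh x - sinh (t * x)) (Set.Ici 0) := by
    apply monotoneOn_of_deriv_nonneg (convex_Ici 0)
    · exact fun x _ => (hd x).continuousAt.continuousWithinAt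
    · exact fun x _ => (hd x).differentiableAt.differentiableWithinAt
    · intro x hx
      rw [interior_Ici] at hx
      have hx0 : (0 : ℝ) < x := hx
      rw [(hd x).deriv]
      have h1 : cosh (t * x) ≤ cosh x := by
        rw [Real.cosh_le_cosh, abs_of_nonneg (mul_nonneg ht0 hx0.le), abs_of_pos hx0]
        nlinarith
      nlinarith
  have := hmono (Set.mem_Ici.2 le_rfl) (Set.mem_Ici.2 hβ) hβ
  simp only [sinh_zero, mul_zero, sub_zero] at this
  linarith

/-- `t sin α ≤ sin (t α)` for `t ∈ [0,1]`, `α ∈ [0,π]` (`strictConcaveOn_sin_Icc`, points `α` and `0`). -/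
theorem co_le_sin_mul {t α : ℝ} (ht0 : 0 ≤ t) (ht1 : t ≤ 1) (hα0 : 0 ≤ α) (hα : α ≤ π) :
    t * sin α ≤ sin (t * α) := by
  have h := strictConcaveOn_sin_Icc.concaveOn.2 (x := α) (y := 0) ⟨hα0, hα⟩ ⟨le_rfl, Real.pi_pos.le⟩ ht0
    (sub_nonneg.2 ht1) (by ring)
  simpa using h

/-- derivative of `G β = sinh (t β) cosh β - t cosh (t β) sinh β` -/
theorem co_G_hasDerivAt (t b : ℝ) :
    HasDerivAt (fun b : ℝ => sinh (t * b) * cosh b - t * cosh (t * b) * sinh b)
      ((1 - t ^ 2) * (sinh (t * b) * sinh b)) b := by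
  have h0 : HasDerivAt (fun b : ℝ => t * b) t b := by
    simpa using (hasDerivAt_id b).const_mul t
  have h1 : HasDerivAt (fun b : ℝ => sinh (t * b)) (cosh (t * b) * t) b := h0.sinh
  have h2 : HasDerivAt (fun b : ℝ => cosh (t * b)) (sinh (t * b) * t) b := h0.cosh
  have h3 : HasDerivAt (fun b : ℝ => cosh b) (sinh b) b := Real.hasDerivAt_cosh b
  have h4 : HasDerivAt (fun b : ℝ => sinh b) (cosh b) b := Real.hasDerivAt_sinh b
  have h5 : HasDerivAt (fun b : ℝ => sinh (t * b) * cosh b - t * cosh (t * b) * sinh b)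
      (cosh (t * b) * t * cosh b + sinh (t * b) * sinh b
        - (t * (sinh (t * b) * t) * sinh b + t * cosh (t * b) * cosh b)) b :=
    (h1.mul h3).sub ((h2.const_mul t).mul h4)
  have e : (1 - t ^ 2) * (sinh (t * b) * sinh b) = cosh (t * b) * t * cosh b + sinh (t * b) * sinh b
        - (t * (sinh (t * b) * t) * sinh b + t * cosh (t * b) * cosh b) := by ring
  rw [e]
  exact h5

/-- `t cosh (t β) sinh β ≤ sinh (t β) cosh β`.
Proof: `G β = sinh (t β) cosh β - t cosh (t β) sinh β`, `G 0 = 0`, `G' = (1 - t^2) sinh (t β) sinh β ≥ 0`. -/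
theorem co_cosh_sinh_le {t β : ℝ} (ht0 : 0 ≤ t) (ht1 : t ≤ 1) (hβ : 0 ≤ β) :
    t * cosh (t * β) * sinh β ≤ sinh (t * β) * cosh β := by
  have hmono : MonotoneOn (fun b : ℝ => sinh (t * b) * cosh b - t * cosh (t * b) * sinh b) (Set.Ici 0) := by
    refine monotoneOn_of_deriv_nonneg (convex_Ici 0) ?_ ?_ ?_
    · exact fun b _ => (co_G_hasDerivAt t b).continuousAt.continuousWithinAt
    · exact fun b _ => (co_G_hasDerivAt t b).differentiableAt.differentiableWithinAt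
    · intro b hb
      rw [interior_Ici] at hb
      have hb0 : (0 : ℝ) < b := hb
      rw [(co_G_hasDerivAt t b).deriv]
      have h1 : 0 ≤ 1 - t ^ 2 := by nlinarith
      have h2 : 0 ≤ sinh (t * b) := Real.sinh_nonneg_iff.2 (mul_nonneg ht0 hb0.le)
      have h3 : 0 ≤ sinh b := Real.sinh_nonneg_iff.2 hb0.le
      positivity
  have := hmono (Set.mem_Ici.2 le_rfl) (Set.mem_Ici.2 hβ) hβ
  simp only [mul_zero, Real.sinh_zero, Real.cosh_zero, zero_mul, sub_zero] at this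
  linarith

/-- `β ↦ sinh (t β) / sinh β` is antitone on `(0,∞)`:
derivative `= (t cosh (t β) sinh β - sinh (t β) cosh β) / sinh² β ≤ 0` by `co_cosh_sinh_le`; `antitoneOn_of_deriv_nonpos` on `Ioi 0`. -/
theorem co_sinh_ratio_antitone {t β β' : ℝ} (ht0 : 0 ≤ t) (ht1 : t ≤ 1) (hβ : 0 < β) (hββ' : β ≤ β') :
    sinh (t * β') / sinh β' ≤ sinh (t * β) / sinh β := by
  have hder : ∀ b : ℝ, 0 < b → HasDerivAt (fun b : ℝ => sinh (t * b) / sinh b)
      ((cosh (t * b) * t * sinh b - sinh (t * b) * cosh b) / sinh b ^ 2) b := by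
    intro b hb
    have h0 : HasDerivAt (fun b : ℝ => t * b) t b := by
      simpa using (hasDerivAt_id b).const_mul t
    have h1 : HasDerivAt (fun b : ℝ => sinh (t * b)) (cosh (t * b) * t) b := h0.sinh
    have h4 : HasDerivAt (fun b : ℝ => sinh b) (cosh b) b := Real.hasDerivAt_sinh b
    exact h1.div h4 (Real.sinh_pos_iff.2 hb).ne'
  have hanti : AntitoneOn (fun b : ℝ => sinh (t * b) / sinh b) (Set.Ioi 0) := by
    refine antitoneOn_of_deriv_nonpos (convex_Ioi 0) ?_ ?_ ?_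
    · exact fun b hb => (hder b hb).continuousAt.continuousWithinAt
    · intro b hb
      rw [interior_Ioi] at hb
      exact (hder b hb).differentiableAt.differentiableWithinAt
    · intro b hb
      rw [interior_Ioi] at hb
      have hb0 : (0 : ℝ) < b := hb
      rw [(hder b hb0).deriv]
      have := co_cosh_sinh_le ht0 ht1 hb0.le
      apply div_nonpos_of_nonpos_of_nonneg
      · nlinarith
      · positivity
  exact hanti (Set.mem_Ioi.2 hβ) (Set.mem_Ioi.2 (lt_of_lt_of_le hβ hββ')) hββ'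

/-- `t e^{-(1-t) β} sinh β ≤ sinh (t β)`.
Proof: write `sinh` with exponentials (`Real.sinh_eq`); after division by `e^{t β}` the claim is `e^{-2 t β} ≤ (1-t) + t e^{-2 β}` = convexity of `exp` (`convexOn_exp`). -/
theorem co_sinh_mul_ge {t β : ℝ} (ht0 : 0 ≤ t) (ht1 : t ≤ 1) (β_nonneg : 0 ≤ β) :
    t * exp (-((1 - t) * β)) * sinh β ≤ sinh (t * β) := by
  have h := convexOn_exp.2 (x := -(2 * β)) (y := 0) (Set.mem_univ _) (Set.mem_univ _) ht0
    (sub_nonneg.2 ht1) (by ring)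
  simp only [smul_eq_mul, mul_zero, add_zero, exp_zero, mul_one] at h
  rw [Real.sinh_eq, Real.sinh_eq]
  have e1 : exp (-((1 - t) * β)) * exp β = exp (t * β) := by
    rw [← exp_add]; congr 1; ring
  have e2 : exp (-((1 - t) * β)) * exp (-β) = exp (t * β) * exp (-(2 * β)) := by
    rw [← exp_add, ← exp_add]; congr 1; ring
  have e3 : exp (-(t * β)) = exp (t * β) * exp (t * -(2 * β)) := by
    rw [← exp_add]; congr 1; ring
  have hp := exp_pos (t * β)
  have key : t * exp (-((1 - t) * β)) * ((exp β - exp (-β)) / 2)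
      = exp (t * β) * (t - t * exp (-(2 * β))) / 2 := by
    have : t * exp (-((1 - t) * β)) * ((exp β - exp (-β)) / 2)
        = t * (exp (-((1 - t) * β)) * exp β - exp (-((1 - t) * β)) * exp (-β)) / 2 := by ring
    rw [this, e1, e2]; ring
  rw [key, e3]
  have : exp (t * β) * (t - t * exp (-(2 * β))) ≤ exp (t * β) * (1 - exp (t * -(2 * β))) :=
    mul_le_mul_of_nonneg_left (by linarith) hp.le
  linarith

/-- `sinh (β/2) / sinh β = 1 / (2 cosh (β/2))` for `β ≠ 0` (`Real.sinh_two_mul`). -/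
theorem co_sinh_half {β : ℝ} (hβ : β ≠ 0) : sinh (1 / 2 * β) / sinh β = 1 / (2 * cosh (β / 2)) := by
  have h1 : sinh β = 2 * sinh (β / 2) * cosh (β / 2) := by
    rw [← Real.sinh_two_mul]
    congr 1
    ring
  have h2 : sinh (β / 2) ≠ 0 := by
    rw [Ne, Real.sinh_eq_zero]
    intro h
    apply hβ
    linarith
  have h3 : cosh (β / 2) ≠ 0 := (Real.cosh_pos _).ne'
  rw [h1, show (1 / 2 * β : ℝ) = β / 2 by ring]
  field_simp

/-- `1 - a x²/2 ≤ cosh(x)^{-a}` for `a ≥ 0`: `cosh x ≤ e^{x²/2}` (`Real.cosh_le_exp_half_sq`), so `cosh(x)^{-a} ≥ e^{-a x²/2} ≥ 1 - a x²/2` (`Real.add_one_le_exp`). -/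
theorem co_cosh_rpow_neg_ge {a : ℝ} (ha : 0 ≤ a) (x : ℝ) : 1 - a * x ^ 2 / 2 ≤ cosh x ^ (-a) := by
  have hc : 0 < cosh x := Real.cosh_pos x
  have h1 : cosh x ≤ exp (x ^ 2 / 2) := Real.cosh_le_exp_half_sq x
  have h2 : cosh x ^ a ≤ exp (x ^ 2 / 2) ^ a := Real.rpow_le_rpow hc.le h1 ha
  have h3 : exp (x ^ 2 / 2) ^ a = exp (a * x ^ 2 / 2) := by
    rw [← Real.exp_mul]
    congr 1
    ring
  rw [h3] at h2
  have h4 : 0 < cosh x ^ a := Real.rpow_pos_of_pos hc a
  rw [Real.rpow_neg hc.le]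
  have h5 : (exp (a * x ^ 2 / 2))⁻¹ ≤ (cosh x ^ a)⁻¹ := inv_anti₀ h4 h2
  have h6 : (exp (a * x ^ 2 / 2))⁻¹ = exp (-(a * x ^ 2 / 2)) := (Real.exp_neg _).symm
  have h7 := Real.add_one_le_exp (-(a * x ^ 2 / 2))
  rw [h6] at h5
  linarith

/-- `∏_{n<M} cosh (x/2^{n+1}) ≤ e^{x²/6}`: `Real.cosh_le_exp_half_sq`, `∑_{n<M} 4^{-(n+1)} ≤ 1/3`. -/
theorem co_prod_cosh_le (x : ℝ) (M : ℕ) :
    ∏ n ∈ Finset.range M, cosh (x / 2 ^ (n + 1)) ≤ exp (x ^ 2 / 6) := by
  have hsum : ∀ M : ℕ, ∑ n ∈ Finset.range M, (1 / 4 : ℝ) ^ (n + 1) = (1 - (1 / 4 : ℝ) ^ M) / 3 := by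
    intro M
    induction M with
    | zero => simp
    | succ M ih =>
      rw [Finset.sum_range_succ, ih, pow_succ]
      ring
  have h1 : ∏ n ∈ Finset.range M, cosh (x / 2 ^ (n + 1))
      ≤ ∏ n ∈ Finset.range M, exp (x ^ 2 / 2 * (1 / 4 : ℝ) ^ (n + 1)) := by
    refine Finset.prod_le_prod (fun n _ => (Real.cosh_pos _).le) (fun n _ => ?_)
    refine (Real.cosh_le_exp_half_sq _).trans (le_of_eq ?_)
    congr 1
    have h4 : (1 / 4 : ℝ) ^ (n + 1) = 1 / (2 ^ (n + 1)) ^ 2 := by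
      rw [one_div_pow, ← pow_mul, mul_comm, pow_mul]
      norm_num
    rw [h4, div_pow]
    ring
  refine h1.trans ?_
  rw [← Real.exp_sum, ← Finset.mul_sum, hsum]
  apply Real.exp_le_exp.2
  have h5 : (0 : ℝ) ≤ (1 / 4 : ℝ) ^ M := by positivity
  have h6 : 0 ≤ x ^ 2 := sq_nonneg x
  nlinarith

end Claimed.Agent.R210.CO.Sinh
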