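/-
Row 210 (S0432), layer CO (coefficients), file 2: the frozen `sigmaCoeff`.
Architect of the layer: helper785.
-/
import Claimed.Agent.R210.Defs
import Claimed.Agent.R210.CO.Sinh

set_option autoImplicit false

open Claims.C0366 Claims.C0366.WeakHessian
open scoped ENNReal

namespace Claimed.Agent.R210.CO.Sigma

open Real Claimed.Agent.R210.CO.Sinh

/-- the real ratio `sinh (t θ k) / sinh (θ k)`, with the value `t` at `θ = 0` -/
noncomputable def co_sig (k t θ : ℝ) : ℝ := if θ = 0 then t else sinh (t * θ * k) / sinh (θ * k)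

/-- unfold `sigmaCoeff`; `t = 0`: both sides `0`; `t = 1`: `sinh x / sinh x = 1` as `θ k ≠ 0`. (No sign condition on `θ`.) -/
theorem co_sigma_eq {K N t θ : ℝ} (hK : K < 0) (hN : 0 < N) (ht0 : 0 ≤ t) (ht1 : t ≤ 1) :
    sigmaCoeff K N t θ = ENNReal.ofReal (co_sig (sqrt (-K / N)) t θ) := by
  have hk : 0 < sqrt (-K / N) := Real.sqrt_pos.mpr (div_pos (neg_pos.mpr hK) hN)
  unfold sigmaCoeff co_sig
  by_cases h0 : t ≤ 0
  · have ht : t = 0 := le_antisymm h0 ht0
    subst ht
    simp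
  · rw [if_neg h0]
    by_cases h1 : 1 ≤ t
    · have ht : t = 1 := le_antisymm ht1 h1
      subst ht
      rw [if_pos le_rfl]
      by_cases hθ : θ = 0
      · simp [hθ]
      · rw [if_neg hθ]
        have hne : sinh (θ * sqrt (-K / N)) ≠ 0 := by
          rw [Ne, Real.sinh_eq_zero]
          exact mul_ne_zero hθ hk.ne'
        rw [one_mul, div_self hne, ENNReal.ofReal_one]
    · rw [if_neg h1]
      by_cases hθ : θ = 0
      · simp [hθ]
      · rw [if_neg hθ, if_neg (not_lt.mpr hK.le), if_neg hK.ne, if_neg hθ]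

/-- `co_sinh_mul_le` -/
theorem co_sig_le {k t θ : ℝ} (hk : 0 < k) (ht0 : 0 ≤ t) (ht1 : t ≤ 1) (hθ : 0 ≤ θ) : co_sig k t θ ≤ t := by
  unfold co_sig
  by_cases h : θ = 0
  · rw [if_pos h]
  · rw [if_neg h]
    have hθ' : 0 < θ := lt_of_le_of_ne hθ (Ne.symm h)
    have hpos : 0 < sinh (θ * k) := Real.sinh_pos_iff.mpr (mul_pos hθ' hk)
    rw [div_le_iff₀ hpos, mul_assoc]
    exact co_sinh_mul_le ht0 ht1 (mul_pos hθ' hk).le

/-- `co_sinh_mul_ge` -/
theorem co_sig_ge {k t θ : ℝ} (hk : 0 < k) (ht0 : 0 ≤ t) (ht1 : t ≤ 1) (hθ : 0 ≤ θ) :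
    t * exp (-((1 - t) * (θ * k))) ≤ co_sig k t θ := by
  unfold co_sig
  by_cases h : θ = 0
  · rw [if_pos h]
    simp [h]
  · rw [if_neg h]
    have hθ' : 0 < θ := lt_of_le_of_ne hθ (Ne.symm h)
    have hpos : 0 < sinh (θ * k) := Real.sinh_pos_iff.mpr (mul_pos hθ' hk)
    rw [le_div_iff₀ hpos, mul_assoc t θ k]
    exact co_sinh_mul_ge ht0 ht1 (mul_pos hθ' hk).le

/-- `co_sinh_ratio_antitone` with `β = θ k ≤ β' = θ' k'`; if `θ = 0` use `co_sig_le`. -/
theorem co_sig_antitone {k k' t θ θ' : ℝ} (hk : 0 < k) (hkk' : k ≤ k') (ht0 : 0 ≤ t) (ht1 : t ≤ 1) (hθ : 0 ≤ θ)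
    (hθθ' : θ ≤ θ') : co_sig k' t θ' ≤ co_sig k t θ := by
  have hk' : 0 < k' := lt_of_lt_of_le hk hkk'
  by_cases h : θ = 0
  · have h1 : co_sig k t θ = t := by
      unfold co_sig
      rw [if_pos h]
    rw [h1]
    exact co_sig_le hk' ht0 ht1 (le_trans hθ hθθ')
  · have hθp : 0 < θ := lt_of_le_of_ne hθ (Ne.symm h)
    have hθ'p : 0 < θ' := lt_of_lt_of_le hθp hθθ'
    unfold co_sig
    rw [if_neg h, if_neg hθ'p.ne', mul_assoc t θ' k', mul_assoc t θ k]
    exact co_sinh_ratio_antitone ht0 ht1 (mul_pos hθp hk)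
      (mul_le_mul hθθ' hkk' hk.le hθ'p.le)

/-- continuity on `[0,∞)`: at `θ > 0` the formula is continuous (`sinh (θ k) ≠ 0`, and `co_sig` coincides with it near `θ`);
at `θ = 0` squeeze between `co_sig_ge` and `co_sig_le`. -/
theorem co_sig_continuousOn {k t : ℝ} (hk : 0 < k) (ht0 : 0 ≤ t) (ht1 : t ≤ 1) :
    ContinuousOn (fun θ => co_sig k t θ) (Set.Ici 0) := by
  intro θ hθ
  have hθ0 : (0 : ℝ) ≤ θ := hθ
  rcases hθ0.eq_or_lt with h0 | hpos
  · subst h0
    have hval : co_sig k t 0 = t := by simp [co_sig]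
    unfold ContinuousWithinAt
    beta_reduce
    rw [hval]
    have hlow : Filter.Tendsto (fun θ : ℝ => t * exp (-((1 - t) * (θ * k)))) (nhdsWithin 0 (Set.Ici 0)) (nhds t) := by
      have hc : Continuous (fun θ : ℝ => t * exp (-((1 - t) * (θ * k)))) := by fun_prop
      have := (hc.tendsto 0).mono_left (nhdsWithin_le_nhds (s := Set.Ici (0 : ℝ)))
      simpa using this
    refine tendsto_of_tendsto_of_tendsto_of_le_of_le' hlow tendsto_const_nhds ?_ ?_
    · filter_upwards [self_mem_nhdsWithin] with x hx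
      exact co_sig_ge hk ht0 ht1 hx
    · filter_upwards [self_mem_nhdsWithin] with x hx
      exact co_sig_le hk ht0 ht1 hx
  · apply ContinuousAt.continuousWithinAt
    have hne : sinh (θ * k) ≠ 0 := by
      rw [Ne, Real.sinh_eq_zero]
      exact (mul_pos hpos hk).ne'
    have hf : ContinuousAt (fun θ : ℝ => sinh (t * θ * k) / sinh (θ * k)) θ := by
      refine ContinuousAt.div ?_ ?_ hne
      · exact (Real.continuous_sinh.comp (by fun_prop)).continuousAt
      · exact (Real.continuous_sinh.comp (by fun_prop)).continuousAt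
    refine hf.congr ?_
    filter_upwards [isOpen_ne.mem_nhds hpos.ne'] with x hx
    simp [co_sig, show x ≠ 0 from hx]

/-- **monotonicity of `sigmaCoeff` in `K`** (target curvature negative).  Cases `t ≤ 0`, `1 ≤ t`, `θ = 0`: equality.  Otherwise `0<t<1`, `θ>0`:
`K > 0`, infinite branch: trivial; finite branch: `α = θ sqrt(K/N) ∈ (0,π)` (from `K θ² < N π²`: `α² < π²`), `sin (t α)/sin α ≥ t` (`co_le_sin_mul`) `≥ sinh(tβ')/sinh β'` (`co_sinh_mul_le`);
`K = 0`: `co_sinh_mul_le`;  `K < 0`: `co_sinh_ratio_antitone` with `sqrt (-K/N) ≤ sqrt (-K'/N)`. -/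
theorem co_sigma_mono {K K' N t θ : ℝ} (hK' : K' < 0) (hKK' : K' ≤ K) (hN : 0 < N) (hθ : 0 ≤ θ) :
    sigmaCoeff K' N t θ ≤ sigmaCoeff K N t θ := by
  unfold sigmaCoeff
  by_cases ht0 : t ≤ 0
  · simp [ht0]
  by_cases ht1 : 1 ≤ t
  · simp [ht0, ht1]
  by_cases hθ0 : θ = 0
  · simp [ht0, ht1, hθ0]
  have hK'0 : ¬ (0 < K') := not_lt.mpr hK'.le
  have hK'ne : K' ≠ 0 := hK'.ne
  simp only [ht0, ht1, hθ0, hK'0, hK'ne, if_false]
  rw [not_le] at ht0 ht1
  have hθpos : 0 < θ := lt_of_le_of_ne hθ (Ne.symm hθ0)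
  have hk' : 0 < sqrt (-K' / N) := sqrt_pos.mpr (div_pos (neg_pos.mpr hK') hN)
  have hβ' : 0 < θ * sqrt (-K' / N) := mul_pos hθpos hk'
  have hle_t : sinh (t * θ * sqrt (-K' / N)) / sinh (θ * sqrt (-K' / N)) ≤ t := by
    rw [div_le_iff₀ (sinh_pos_iff.mpr hβ'), mul_assoc]
    exact co_sinh_mul_le ht0.le ht1.le hβ'.le
  by_cases hKpos : 0 < K
  · simp only [hKpos, if_true]
    by_cases hfin : K * θ ^ 2 < N * π ^ 2
    · simp only [hfin, if_true]
      apply ENNReal.ofReal_le_ofReal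
      refine hle_t.trans ?_
      have ha : 0 < sqrt (K / N) := sqrt_pos.mpr (div_pos hKpos hN)
      have hα : 0 < θ * sqrt (K / N) := mul_pos hθpos ha
      have hαpi : θ * sqrt (K / N) < π := by
        have h2 : (θ * sqrt (K / N)) ^ 2 < π ^ 2 := by
          rw [mul_pow, sq_sqrt (div_pos hKpos hN).le, mul_div_assoc', div_lt_iff₀ hN]
          nlinarith
        exact lt_of_pow_lt_pow_left₀ 2 pi_pos.le h2
      rw [le_div_iff₀ (sin_pos_of_pos_of_lt_pi hα hαpi), mul_assoc]
      exact co_le_sin_mul ht0.le ht1.le hα.le hαpi.le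
    · simp [hfin]
  · simp only [hKpos, if_false]
    by_cases hK0 : K = 0
    · simp only [hK0, if_true]
      exact ENNReal.ofReal_le_ofReal hle_t
    · simp only [hK0, if_false]
      apply ENNReal.ofReal_le_ofReal
      have hKneg : K < 0 := lt_of_le_of_ne (not_lt.mp hKpos) hK0
      have hk : 0 < sqrt (-K / N) := sqrt_pos.mpr (div_pos (neg_pos.mpr hKneg) hN)
      have hkk' : sqrt (-K / N) ≤ sqrt (-K' / N) :=
        sqrt_le_sqrt (div_le_div_of_nonneg_right (by linarith) hN.le)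
      rw [mul_assoc, mul_assoc]
      exact co_sinh_ratio_antitone ht0.le ht1.le (mul_pos hθpos hk)
        (mul_le_mul_of_nonneg_left hkk' hθ)

/-- measurability in `θ` (all parameters arbitrary): `Measurable.ite` on the measurable sets `{θ = 0}`, `{K θ² < N π²}`; the other conditions do not depend on `θ` (`split_ifs` / `by_cases`). -/
theorem co_sigma_measurable (K N t : ℝ) : Measurable (fun θ : ℝ => sigmaCoeff K N t θ) := by
  unfold sigmaCoeff
  by_cases h1 : t ≤ 0
  · simp only [if_pos h1]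
    exact measurable_const
  simp only [if_neg h1]
  by_cases h2 : 1 ≤ t
  · simp only [if_pos h2]
    exact measurable_const
  simp only [if_neg h2]
  refine Measurable.ite (measurableSet_eq_fun measurable_id measurable_const) measurable_const ?_
  by_cases h3 : 0 < K
  · simp only [if_pos h3]
    refine Measurable.ite (measurableSet_lt (by fun_prop) measurable_const) ?_ measurable_const
    refine ENNReal.measurable_ofReal.comp ?_
    exact (Real.measurable_sin.comp (by fun_prop)).div (Real.measurable_sin.comp (by fun_prop))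
  simp only [if_neg h3]
  by_cases h4 : K = 0
  · simp only [if_pos h4]
    exact measurable_const
  simp only [if_neg h4]
  refine ENNReal.measurable_ofReal.comp ?_
  exact (Real.measurable_sinh.comp (by fun_prop)).div (Real.measurable_sinh.comp (by fun_prop))

end Claimed.Agent.R210.CO.Sigma
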