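/-
Row 210 (S0432), layer CO (coefficients tau/sigma, reduction to `K < 0`): INTERFACE.
Architect of the layer: helper785.  Consumers import this file only.

Summary (`K < 0`, `1 < N`, `k = co_k K N = sqrt (-K/(N-1))`, `t ∈ [0,1]`, `θ ≥ 0`):
* `co_tau K N t θ : ℝ` real version, `co_tau_eq : tauCoeff K N t θ = ENNReal.ofReal (co_tau K N t θ)`, `co_tau_formula`;
* `t e^{-(1-t) θ k} ≤ co_tau K N t θ ≤ t` (`co_tau_ge`, `co_tau_le`), `1 - s (1 + θ k) ≤ co_tau K N (1-s) θ` (`co_tau_ge_lin`);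
* antitone and continuous in `θ ≥ 0` (`co_tau_antitone`, `co_tau_continuousOn`), values at `θ = 0`, `t = 0`, `t = 1`;
* `co_tau_half`, `co_two_tau_half_rpow`, `co_tau_half_ge`, `co_tau_half_ge_exp` (the expansion used for `N' → ∞`), `co_prod_cosh_le'`;
* `ℝ≥0∞` versions `co_tauCoeff_*` (mono in `K`, measurable in `θ`, antitone, `≠ ∞`, `> 0`, `≤ ofReal t`);
* `co_cd_mono` (CO1), `co_std`, `co_exists_std` (FIN0).
-/
import Claimed.Agent.R210.CO.Sigma

set_option autoImplicit false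

open Claims.C0366 Claims.C0366.WeakHessian
open MeasureTheory
open scoped ENNReal

namespace Claimed.Agent.R210.CO.Ifc

open Real Claimed.Agent.R210.CO.Sinh Claimed.Agent.R210.CO.Sigma

/-- `k = sqrt (-K/(N-1))` -/
noncomputable def co_k (K N : ℝ) : ℝ := sqrt (-K / (N - 1))

/-- real version of the frozen `tauCoeff` (meaningful for `K < 0`, `1 < N`, `t ∈ [0,1]`) -/
noncomputable def co_tau (K N t θ : ℝ) : ℝ := t ^ (1 / N) * (co_sig (co_k K N) t θ) ^ ((N - 1) / N)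

variable {K N t θ : ℝ}

theorem co_k_pos (hK : K < 0) (hN : 1 < N) : 0 < co_k K N := by
  unfold co_k
  apply Real.sqrt_pos.2
  apply div_pos <;> linarith

theorem co_k_sq (hK : K < 0) (hN : 1 < N) : co_k K N ^ 2 = -K / (N - 1) := by
  unfold co_k
  apply Real.sq_sqrt
  apply le_of_lt
  apply div_pos <;> linarith

/-- `co_sig` is nonnegative for every real `θ` -/
theorem co_sig_nonneg_all {k : ℝ} (ht0 : 0 ≤ t) (θ : ℝ) : 0 ≤ co_sig k t θ := by
  unfold co_sig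
  split_ifs with h
  · exact ht0
  · rw [mul_assoc]
    rcases le_total 0 (θ * k) with hx | hx
    · exact div_nonneg (Real.sinh_nonneg_iff.2 (mul_nonneg ht0 hx)) (Real.sinh_nonneg_iff.2 hx)
    · exact div_nonneg_of_nonpos (Real.sinh_nonpos_iff.2 (mul_nonpos_of_nonneg_of_nonpos ht0 hx))
        (Real.sinh_nonpos_iff.2 hx)

/-- exponents -/
theorem co_exp_aux (hN : 1 < N) : 0 < 1 / N ∧ 0 < (N - 1) / N ∧ 1 / N + (N - 1) / N = 1 := by
  have hN0 : 0 < N := by linarith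
  refine ⟨by positivity, div_pos (by linarith) hN0, ?_⟩
  field_simp
  ring

/-- `t^{1/N} t^{(N-1)/N} = t` -/
theorem co_rpow_split (hN : 1 < N) (ht0 : 0 ≤ t) : t ^ (1 / N) * t ^ ((N - 1) / N) = t := by
  obtain ⟨h1, h2, h3⟩ := co_exp_aux hN
  rw [← Real.rpow_add_of_nonneg ht0 h1.le h2.le, h3, Real.rpow_one]

/-- the frozen coefficient is `ofReal` of the real one -/
theorem co_tau_eq (hK : K < 0) (hN : 1 < N) (ht0 : 0 ≤ t) (ht1 : t ≤ 1) (θ : ℝ) :
    tauCoeff K N t θ = ENNReal.ofReal (co_tau K N t θ) := by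
  have hN0 : 0 < N := by linarith
  have hN1 : 0 < N - 1 := by linarith
  have hs : 0 ≤ co_sig (sqrt (-K / (N - 1))) t θ := co_sig_nonneg_all ht0 θ
  unfold tauCoeff co_tau co_k
  rw [co_sigma_eq hK hN1 ht0 ht1, ENNReal.ofReal_rpow_of_nonneg ht0 (by positivity),
    ENNReal.ofReal_rpow_of_nonneg hs (by positivity), ← ENNReal.ofReal_mul (by positivity)]

theorem co_tau_formula (K N t : ℝ) (hθ : θ ≠ 0) :
    co_tau K N t θ = t ^ (1 / N) * (sinh (t * θ * co_k K N) / sinh (θ * co_k K N)) ^ ((N - 1) / N) := by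
  simp [co_tau, co_sig, hθ]

theorem co_tau_le (hK : K < 0) (hN : 1 < N) (ht0 : 0 ≤ t) (ht1 : t ≤ 1) (hθ : 0 ≤ θ) : co_tau K N t θ ≤ t := by
  obtain ⟨h1, h2, h3⟩ := co_exp_aux hN
  have hs := co_sig_le (co_k_pos hK hN) ht0 ht1 hθ
  have hs0 : 0 ≤ co_sig (co_k K N) t θ := co_sig_nonneg_all ht0 θ
  calc co_tau K N t θ ≤ t ^ (1 / N) * t ^ ((N - 1) / N) := by
        unfold co_tau
        exact mul_le_mul_of_nonneg_left (Real.rpow_le_rpow hs0 hs h2.le) (Real.rpow_nonneg ht0 _)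
    _ = t := co_rpow_split hN ht0

theorem co_tau_ge (hK : K < 0) (hN : 1 < N) (ht0 : 0 ≤ t) (ht1 : t ≤ 1) (hθ : 0 ≤ θ) :
    t * exp (-((1 - t) * (θ * co_k K N))) ≤ co_tau K N t θ := by
  obtain ⟨h1, h2, h3⟩ := co_exp_aux hN
  have hk := co_k_pos hK hN
  have hs := co_sig_ge hk ht0 ht1 hθ
  set x : ℝ := (1 - t) * (θ * co_k K N) with hx
  have hx0 : 0 ≤ x := mul_nonneg (by linarith) (mul_nonneg hθ hk.le)
  have hb1 : (N - 1) / N ≤ 1 := by linarith
  calc t * exp (-x) ≤ t * exp (-x) ^ ((N - 1) / N) := by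
        apply mul_le_mul_of_nonneg_left _ ht0
        rw [← Real.exp_mul]
        apply Real.exp_le_exp.2
        nlinarith
    _ = t ^ (1 / N) * (t * exp (-x)) ^ ((N - 1) / N) := by
        rw [Real.mul_rpow ht0 (Real.exp_pos _).le, ← mul_assoc, co_rpow_split hN ht0]
    _ ≤ co_tau K N t θ := by
        unfold co_tau
        exact mul_le_mul_of_nonneg_left (Real.rpow_le_rpow (by positivity) hs h2.le) (Real.rpow_nonneg ht0 _)

theorem co_tau_nonneg (hK : K < 0) (hN : 1 < N) (ht0 : 0 ≤ t) (ht1 : t ≤ 1) (hθ : 0 ≤ θ) : 0 ≤ co_tau K N t θ :=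
  le_trans (by positivity) (co_tau_ge hK hN ht0 ht1 hθ)

theorem co_tau_pos (hK : K < 0) (hN : 1 < N) (ht0 : 0 < t) (ht1 : t ≤ 1) (hθ : 0 ≤ θ) : 0 < co_tau K N t θ :=
  lt_of_lt_of_le (by positivity) (co_tau_ge hK hN ht0.le ht1 hθ)

/-- linear lower bound near `t = 1` (replaces the first order expansion (b) of the contract) -/
theorem co_tau_ge_lin (hK : K < 0) (hN : 1 < N) {s : ℝ} (hs0 : 0 ≤ s) (hs1 : s ≤ 1) (hθ : 0 ≤ θ) :
    1 - s * (1 + θ * co_k K N) ≤ co_tau K N (1 - s) θ := by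
  have hk := co_k_pos hK hN
  have h := co_tau_ge hK hN (t := 1 - s) (by linarith) (by linarith) hθ
  have hy : 0 ≤ θ * co_k K N := mul_nonneg hθ hk.le
  have e1 : 1 - s * (θ * co_k K N) ≤ exp (-((1 - (1 - s)) * (θ * co_k K N))) := by
    have := Real.add_one_le_exp (-((1 - (1 - s)) * (θ * co_k K N)))
    linarith
  have e2 : (1 - s) * (1 - s * (θ * co_k K N)) ≤ (1 - s) * exp (-((1 - (1 - s)) * (θ * co_k K N))) :=
    mul_le_mul_of_nonneg_left e1 (by linarith)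
  nlinarith [mul_nonneg (mul_nonneg hs0 hs0) hy]

theorem co_tau_antitone (hK : K < 0) (hN : 1 < N) (ht0 : 0 ≤ t) (ht1 : t ≤ 1) {θ' : ℝ} (hθ : 0 ≤ θ) (hθθ' : θ ≤ θ') :
    co_tau K N t θ' ≤ co_tau K N t θ := by
  obtain ⟨h1, h2, h3⟩ := co_exp_aux hN
  unfold co_tau
  exact mul_le_mul_of_nonneg_left (Real.rpow_le_rpow (co_sig_nonneg_all ht0 θ')
    (co_sig_antitone (co_k_pos hK hN) le_rfl ht0 ht1 hθ hθθ') h2.le) (Real.rpow_nonneg ht0 _)

theorem co_tau_continuousOn (hK : K < 0) (hN : 1 < N) (ht0 : 0 ≤ t) (ht1 : t ≤ 1) :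
    ContinuousOn (fun θ => co_tau K N t θ) (Set.Ici 0) := by
  obtain ⟨h1, h2, h3⟩ := co_exp_aux hN
  unfold co_tau
  exact continuousOn_const.mul ((co_sig_continuousOn (co_k_pos hK hN) ht0 ht1).rpow_const fun θ _ => Or.inr h2.le)

theorem co_tau_theta_zero (hN : 1 < N) (ht0 : 0 ≤ t) : co_tau K N t 0 = t := by
  unfold co_tau co_sig
  rw [if_pos rfl]
  exact co_rpow_split hN ht0

theorem co_tau_t_zero (hN : 1 < N) : co_tau K N 0 θ = 0 := by
  obtain ⟨h1, h2, h3⟩ := co_exp_aux hN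
  unfold co_tau
  rw [Real.zero_rpow h1.ne', zero_mul]

theorem co_tau_t_one (hK : K < 0) (hN : 1 < N) : co_tau K N 1 θ = 1 := by
  have hk := co_k_pos hK hN
  unfold co_tau co_sig
  split_ifs with h
  · simp
  · have : sinh (θ * co_k K N) ≠ 0 := by
      rw [Ne, Real.sinh_eq_zero]
      exact mul_ne_zero h hk.ne'
    rw [one_mul, div_self this]
    simp

/-- (a) of the contract -/
theorem co_tau_half (hK : K < 0) (hN : 1 < N) (θ : ℝ) :
    co_tau K N (1 / 2) θ = 1 / 2 * cosh (θ * co_k K N / 2) ^ (-((N - 1) / N)) := by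
  obtain ⟨h1, h2, h3⟩ := co_exp_aux hN
  have hk := co_k_pos hK hN
  have hc : 0 < cosh (θ * co_k K N / 2) := Real.cosh_pos _
  have hsig : co_sig (co_k K N) (1 / 2) θ = 1 / 2 * (cosh (θ * co_k K N / 2))⁻¹ := by
    unfold co_sig
    split_ifs with h
    · simp [h]
    · rw [mul_assoc, co_sinh_half (mul_ne_zero h hk.ne')]
      field_simp
  unfold co_tau
  rw [hsig, Real.mul_rpow (by norm_num) (inv_nonneg.2 hc.le), ← mul_assoc, co_rpow_split hN (by norm_num),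
    Real.inv_rpow hc.le, Real.rpow_neg hc.le]

theorem co_two_tau_half_rpow (hK : K < 0) (hN : 1 < N) (θ : ℝ) :
    (2 * co_tau K N (1 / 2) θ) ^ (-N) = cosh (θ * co_k K N / 2) ^ (N - 1) := by
  have hN0 : 0 < N := by linarith
  have hc : 0 < cosh (θ * co_k K N / 2) := Real.cosh_pos _
  rw [co_tau_half hK hN]
  have : 2 * (1 / 2 * cosh (θ * co_k K N / 2) ^ (-((N - 1) / N))) = cosh (θ * co_k K N / 2) ^ (-((N - 1) / N)) := by ring
  rw [this, ← Real.rpow_mul hc.le]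
  congr 1
  field_simp

/-- (c) of the contract, as an exact inequality valid for every `N > 1`: `2 tau_{K,N}(1/2,θ) ≥ 1 + K θ²/(8N)` -/
theorem co_tau_half_ge (hK : K < 0) (hN : 1 < N) (θ : ℝ) :
    (1 + K * θ ^ 2 / (8 * N)) / 2 ≤ co_tau K N (1 / 2) θ := by
  obtain ⟨h1, h2, h3⟩ := co_exp_aux hN
  have hN0 : 0 < N := by linarith
  have hN1 : N - 1 ≠ 0 := by linarith
  rw [co_tau_half hK hN]
  have h := co_cosh_rpow_neg_ge h2.le (θ * co_k K N / 2)
  have e : (N - 1) / N * (θ * co_k K N / 2) ^ 2 / 2 = -(K * θ ^ 2 / (8 * N)) := by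
    have : (θ * co_k K N / 2) ^ 2 = θ ^ 2 * co_k K N ^ 2 / 4 := by ring
    rw [this, co_k_sq hK hN]
    field_simp
    ring
  rw [e] at h
  linarith

/-- exponential form of `co_tau_half_ge`: `2 tau_{K,N}(1/2,θ) ≥ exp (K θ²/(8N))` -/
theorem co_tau_half_ge_exp (hK : K < 0) (hN : 1 < N) (θ : ℝ) :
    exp (K * θ ^ 2 / (8 * N)) / 2 ≤ co_tau K N (1 / 2) θ := by
  obtain ⟨h1, h2, h3⟩ := co_exp_aux hN
  have hN0 : 0 < N := by linarith
  have hN1 : N - 1 ≠ 0 := by linarith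
  rw [co_tau_half hK hN]
  set x : ℝ := θ * co_k K N / 2 with hx
  have hc : 0 < cosh x := Real.cosh_pos _
  have e : -((N - 1) / N) * (x ^ 2 / 2) = K * θ ^ 2 / (8 * N) := by
    have : x ^ 2 = θ ^ 2 * co_k K N ^ 2 / 4 := by rw [hx]; ring
    rw [this, co_k_sq hK hN]
    field_simp
    ring
  have h : exp (K * θ ^ 2 / (8 * N)) ≤ cosh x ^ (-((N - 1) / N)) := by
    rw [← e, Real.rpow_neg hc.le, neg_mul, Real.exp_neg]
    apply inv_anti₀ (Real.rpow_pos_of_pos hc _)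
    calc cosh x ^ ((N - 1) / N) ≤ exp (x ^ 2 / 2) ^ ((N - 1) / N) :=
          Real.rpow_le_rpow hc.le (Real.cosh_le_exp_half_sq x) h2.le
      _ = exp ((N - 1) / N * (x ^ 2 / 2)) := by rw [← Real.exp_mul]; ring_nf
  linarith

/-- the infinite product of GM4 is bounded -/
theorem co_prod_cosh_le' (x : ℝ) (M : ℕ) :
    ∏ n ∈ Finset.range M, cosh (x / 2 ^ (n + 1)) ≤ exp (x ^ 2 / 6) := co_prod_cosh_le x M

/-! ### `ℝ≥0∞` versions -/

/-- monotonicity in `K` (all `t`) -/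
theorem co_tauCoeff_mono {K' : ℝ} (hK' : K' < 0) (hKK' : K' ≤ K) (hN : 1 < N) (t : ℝ) (hθ : 0 ≤ θ) :
    tauCoeff K' N t θ ≤ tauCoeff K N t θ := by
  obtain ⟨h1, h2, h3⟩ := co_exp_aux hN
  unfold tauCoeff
  exact mul_le_mul_right (ENNReal.rpow_le_rpow (co_sigma_mono hK' hKK' (by linarith) hθ) h2.le) _

theorem co_tauCoeff_measurable (K N t : ℝ) : Measurable (fun θ : ℝ => tauCoeff K N t θ) := by
  unfold tauCoeff
  exact measurable_const.mul ((co_sigma_measurable K (N - 1) t).pow_const _)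

theorem co_tauCoeff_ne_top (hK : K < 0) (hN : 1 < N) (ht0 : 0 ≤ t) (ht1 : t ≤ 1) (θ : ℝ) : tauCoeff K N t θ ≠ ∞ := by
  rw [co_tau_eq hK hN ht0 ht1]; exact ENNReal.ofReal_ne_top

theorem co_tauCoeff_pos (hK : K < 0) (hN : 1 < N) (ht0 : 0 < t) (ht1 : t ≤ 1) (hθ : 0 ≤ θ) : 0 < tauCoeff K N t θ := by
  rw [co_tau_eq hK hN ht0.le ht1]; exact ENNReal.ofReal_pos.2 (co_tau_pos hK hN ht0 ht1 hθ)

theorem co_tauCoeff_le (hK : K < 0) (hN : 1 < N) (ht0 : 0 ≤ t) (ht1 : t ≤ 1) (hθ : 0 ≤ θ) :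
    tauCoeff K N t θ ≤ ENNReal.ofReal t := by
  rw [co_tau_eq hK hN ht0 ht1]; exact ENNReal.ofReal_le_ofReal (co_tau_le hK hN ht0 ht1 hθ)

theorem co_tauCoeff_antitone (hK : K < 0) (hN : 1 < N) (ht0 : 0 ≤ t) (ht1 : t ≤ 1) {θ' : ℝ} (hθ : 0 ≤ θ) (hθθ' : θ ≤ θ') :
    tauCoeff K N t θ' ≤ tauCoeff K N t θ := by
  rw [co_tau_eq hK hN ht0 ht1, co_tau_eq hK hN ht0 ht1]
  exact ENNReal.ofReal_le_ofReal (co_tau_antitone hK hN ht0 ht1 hθ hθθ')

/-! ### CO1, FIN0 -/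

variable {X : Type*} [MetricSpace X] [MeasurableSpace X] [BorelSpace X]

/-- **CO1** -/
theorem co_cd_mono {m : Measure X} {K' : ℝ} (h : CurvatureDimension m K N) (hKK' : K' ≤ K) (hK' : K' < 0) (hN : 1 < N) :
    CurvatureDimension m K' N := by
  intro μ₀ μ₁ h0 h1 s0 s1 a0 a1
  obtain ⟨pl, hpl, hgeo, hopt, hineq⟩ := h μ₀ μ₁ h0 h1 s0 s1 a0 a1
  refine ⟨pl, hpl, hgeo, hopt, fun N' hN' t => le_trans (lintegral_mono fun γ => ?_) (hineq N' hN' t)⟩
  have hN1 : 1 < N' := lt_of_lt_of_le hN hN'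
  exact add_le_add (mul_le_mul_left (co_tauCoeff_mono hK' hKK' hN1 _ dist_nonneg) _)
    (mul_le_mul_left (co_tauCoeff_mono hK' hKK' hN1 _ dist_nonneg) _)

/-- **FIN0**: the standing assumptions hold with `min K (-1) < 0` -/
theorem co_std {m : Measure X} (hN : 1 < N) (hfull : FullSupport m) (hfinite : FiniteOnBoundedSets m) (hrcd : RCD m K N) :
    Defs.Std m (min K (-1)) N where
  one_lt_N := hN
  K_neg := lt_of_le_of_lt (min_le_right _ _) (by norm_num)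
  full := hfull
  finite := hfinite
  cd := co_cd_mono hrcd.1 (min_le_left _ _) (lt_of_le_of_lt (min_le_right _ _) (by norm_num)) hN
  quad := hrcd.2

theorem co_exists_std {m : Measure X} (hN : 1 < N) (hfull : FullSupport m) (hfinite : FiniteOnBoundedSets m)
    (hrcd : RCD m K N) : ∃ K' : ℝ, Defs.Std m K' N := ⟨_, co_std hN hfull hfinite hrcd⟩

end Claimed.Agent.R210.CO.Ifc
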